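import Vale.Agent.P120.Flat.Bilateral
import Vale.Agent.P120.Flat.SelfSimilar

/-!
P120: the testing bound for the Riesz transform gives uniform rectifiability for regular sets whose
pieces have expanded copies in all small balls, in particular for bi-Lipschitz images of
self-similar sets; for all regular sets it gives, inside every ball centred on the set, a ball of comparable
radius that is close to an affine `n`-plane on both sides, and forbids uniform disconnectedness.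
-/

namespace Vale.Agent.Results.P120.QuasiSelfSimilarRectifiable

open MeasureTheory Metric
open scoped NNReal ENNReal

/-- Quasi self-similar regular sets with bounded Riesz transform are uniformly rectifiable. -/
theorem result (d n : ℕ) (μ : Measure (EuclideanSpace ℝ (Fin d))) [IsLocallyFiniteMeasure μ]
    (S : Set (EuclideanSpace ℝ (Fin d))) (hclosed : IsClosed S) (hnull : μ Sᶜ = 0)
    (C : ℝ) (hC : 0 < C) (Cb : ℝ)
    (hbdd : ∀ (c : EuclideanSpace ℝ (Fin d)) (r ε : ℝ), 0 < ε →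
      ∫ x in ball c r, ‖∫ y in ball c r ∩ {y | ε < ‖x - y‖},
          (‖x - y‖ ^ (n + 1))⁻¹ • (x - y) ∂μ‖ ^ 2 ∂μ ≤ Cb * μ.real (ball c r)) :
    ((∀ x ∈ S, ∀ r : ℝ, 0 < r → ENNReal.ofReal r ≤ ediam S →
        r ^ n / C ≤ μ.real (ball x r) ∧ μ.real (ball x r) ≤ C * r ^ n) →
      ((∃ (Y : Type) (_ : MetricSpace Y) (N : ℕ) (F : Fin N → Y → Y) (ρ : Fin N → ℝ) (K : Set Y)
          (h : Y → EuclideanSpace ℝ (Fin d)) (L : ℝ),
          IsCompact K ∧ K = (⋃ i, F i '' K) ∧ (∀ i, 0 < ρ i ∧ ρ i < 1) ∧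
            (∀ i, ∀ x ∈ K, ∀ y ∈ K, dist (F i x) (F i y) = ρ i * dist x y) ∧ 0 < L ∧
            (∀ x ∈ K, ∀ y ∈ K,
              dist x y ≤ L * dist (h x) (h y) ∧ dist (h x) (h y) ≤ L * dist x y) ∧ S = h '' K) ∨
        ∃ c θ : ℝ, 0 < c ∧ 0 < θ ∧ ∀ x ∈ S, ∀ R : ℝ, 0 < R → ENNReal.ofReal R ≤ ediam S →
          ∃ A ⊆ ball x R, θ * R ^ n ≤ μ.real A ∧ ∃ δ : ℝ, 0 < δ ∧
            ∀ y ∈ S, ∀ r : ℝ, 0 < r → r ≤ δ → ∃ f : EuclideanSpace ℝ (Fin d) → EuclideanSpace ℝ (Fin d),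
              (∀ a ∈ A, f a ∈ S ∧ dist (f a) y ≤ r) ∧
              ∀ a ∈ A, ∀ b ∈ A, c * (r / R) * dist a b ≤ dist (f a) (f b)) →
      ∃ θ : ℝ, 0 < θ ∧ ∃ M : ℝ≥0, ∀ x ∈ S, ∀ R : ℝ, 0 < R → ENNReal.ofReal R ≤ ediam S →
        ∃ g : EuclideanSpace ℝ (Fin n) → EuclideanSpace ℝ (Fin d),
          LipschitzOnWith M g (ball 0 R) ∧ θ * R ^ n ≤ μ.real (ball x R ∩ g '' ball 0 R)) ∧
    (∀ r₀ : ℝ, 0 < r₀ →
      (∀ x ∈ S, ∀ r : ℝ, 0 < r → r ≤ r₀ →
        r ^ n / C ≤ μ.real (ball x r) ∧ μ.real (ball x r) ≤ C * r ^ n) →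
      (∀ η : ℝ, 0 < η → ∃ c : ℝ, 0 < c ∧ ∀ x₀ ∈ S, ∀ R : ℝ, 0 < R → R ≤ r₀ →
        ∃ x ∈ S, ∃ r : ℝ, c * R ≤ r ∧ r ≤ R ∧ dist x x₀ ≤ R ∧
          Vale.Agent.P120.Flat.Bilateral S n x r η) ∧
      (1 ≤ n → S.Nonempty → ¬ ∃ δ : ℝ, 0 < δ ∧ Vale.Agent.P120.Flat.NoFineChains S δ)) := by
  refine ⟨fun hreg hclass => ?_, fun r₀ hr₀ hreg => ?_⟩
  · rcases hclass with ⟨Y, _, N, F, ρ, K, h, L, hK, hKF, hρ, hsim, hL, hh, hSK⟩ | hcopy
    · exact Vale.Agent.P120.Flat.bigPieces_selfSimilar hnull hC hreg hbdd hK hKF hρ hsim hL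
        (fun x hx y hy => (hh x hx y hy).1) (fun x hx y hy => (hh x hx y hy).2) hSK
    · exact Vale.Agent.P120.Flat.bigPieces_of_copies hclosed hnull hC hreg hbdd hcopy
  · have h : Vale.Agent.P120.Flat.Reg μ S n C r₀ :=
      { closed := hclosed
        null := hnull
        C_pos := hC
        r_pos := hr₀
        lower := fun x hx r h1 h2 => (hreg x hx r h1 h2).1
        upper := fun x hx r h1 h2 => (hreg x hx r h1 h2).2 }
    exact ⟨fun η hη => h.exists_bilateral hbdd hη,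
      fun hn hne => h.not_uniformly_disconnected hn hbdd hne⟩

end Vale.Agent.Results.P120.QuasiSelfSimilarRectifiable
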