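import Vale.Agent.P120.Main

namespace Vale.Agent.Results.P120.SelfSimilarUnbounded

open MeasureTheory

/-- The truncated Riesz transforms of a strongly separated self-similar measure are not uniformly
bounded in `L²`, in any dimension and for any exponent `s > 0`. -/
theorem result (d m : ℕ) (s : ℝ) (hs : 0 < s) (r : Fin m → ℝ)
    (O : Fin m → EuclideanSpace ℝ (Fin d) ≃ₗᵢ[ℝ] EuclideanSpace ℝ (Fin d))
    (b : Fin m → EuclideanSpace ℝ (Fin d))
    (hr0 : ∀ i, 0 < r i) (hr1 : ∀ i, r i < 1) (hsum : ∑ i, r i ^ s = 1)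
    (K : Set (EuclideanSpace ℝ (Fin d))) (hK : IsCompact K) (hKne : K.Nonempty)
    (hKeq : K = ⋃ i, (fun x => r i • O i x + b i) '' K)
    (hdisj : ∀ i j, i ≠ j →
      Disjoint ((fun x => r i • O i x + b i) '' K) ((fun x => r j • O j x + b j) '' K))
    (μ : Measure (EuclideanSpace ℝ (Fin d))) [IsProbabilityMeasure μ] (hμK : μ Kᶜ = 0)
    (hμ : μ = ∑ i, ENNReal.ofReal (r i ^ s) • μ.map (fun x => r i • O i x + b i)) :
    ¬ ∃ C : ℝ, ∀ ε : ℝ, 0 < ε →
      ∫ x, ‖∫ y, (if ε < ‖x - y‖ then ‖x - y‖ ^ (-(s + 1)) • (x - y) else 0) ∂μ‖ ^ 2 ∂μ ≤ C := by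
  let Φ : Vale.Agent.P120.Sys (EuclideanSpace ℝ (Fin d)) (Fin m) :=
    { s := s, r := r, O := O, b := b, K := K, μ := μ, s_pos := hs, r_pos := hr0, r_lt := hr1,
      sum_rpow := hsum, K_compact := hK, K_nonempty := hKne, K_eq := hKeq, K_disj := hdisj,
      prob := inferInstance, supp := hμK, inv := hμ }
  exact Φ.not_bounded

end Vale.Agent.Results.P120.SelfSimilarUnbounded
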